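import Vale.Agent.P181.TR.Defs

set_option autoImplicit false

/-!
# P181, line TR, block R6: growth of the number of labels (pure numbers)
-/

namespace Vale.Agent.P181.TR.H118

theorem pow_le_fact (a : ℕ) : a ^ a ≤ 3 ^ a * a.factorial := by
  have h1 : (a : ℝ) ^ a / (a.factorial : ℝ) ≤ Real.exp a :=
    Real.pow_div_factorial_le_exp (a : ℝ) (Nat.cast_nonneg a) a
  have h2 : Real.exp (a : ℝ) ≤ 3 ^ a := by
    have h := Real.exp_one_lt_d9
    have h3 : Real.exp 1 ≤ 3 := by linarith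
    calc Real.exp (a : ℝ) = Real.exp 1 ^ a := by
          rw [← Real.exp_nat_mul, mul_one]
      _ ≤ 3 ^ a := pow_le_pow_left₀ (Real.exp_pos 1).le h3 a
  have h4 : (0 : ℝ) < a.factorial := by exact_mod_cast a.factorial_pos
  have h5 : (a : ℝ) ^ a ≤ 3 ^ a * a.factorial := by
    rw [div_le_iff₀ h4] at h1
    exact h1.trans (mul_le_mul_of_nonneg_right h2 h4.le)
  exact_mod_cast h5

theorem choose_bd (a N : ℕ) : a ^ a * N.choose a ≤ (3 * N) ^ a :=
  calc a ^ a * N.choose a ≤ (3 ^ a * a.factorial) * N.choose a :=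
        Nat.mul_le_mul_right _ (pow_le_fact a)
    _ = 3 ^ a * N.descFactorial a := by
        rw [Nat.descFactorial_eq_factorial_mul_choose, mul_assoc]
    _ ≤ 3 ^ a * N ^ a := Nat.mul_le_mul_left _ (Nat.descFactorial_le_pow N a)
    _ = (3 * N) ^ a := (mul_pow 3 N a).symm

/-- **(R6)**. -/
theorem growR : GrowR := by
  intro a b q r Y t D ha hq hr hY hb ht h27
  set N := 2 * a + D with hN
  set C := N.choose a with hC
  have hC1 : 1 ≤ C := Nat.choose_pos (by omega)
  -- the three factors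
  have f1 : (a + b).choose a ≤ C := Nat.choose_le_choose a (by omega)
  have f2 : (D + a - 1).choose (a - 1) ≤ C := by
    obtain ⟨a', rfl⟩ : ∃ a', a = a' + 1 := ⟨a - 1, by omega⟩
    have e : D + (a' + 1) - 1 = D + a' := by omega
    rw [e, Nat.add_sub_cancel]
    calc (D + a').choose a' ≤ (D + a' + 1).choose (a' + 1) := by
          rw [Nat.choose_succ_succ]; omega
      _ ≤ C := Nat.choose_le_choose _ (by omega)
  have f3 : (a + t - 1).choose t ≤ C := by
    obtain ⟨a', rfl⟩ : ∃ a', a = a' + 1 := ⟨a - 1, by omega⟩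
    have e : a' + 1 + t - 1 = a' + t := by omega
    rw [e, ← Nat.choose_symm_add]
    calc (a' + t).choose a' ≤ (a' + t + 1).choose (a' + 1) := by
          rw [Nat.choose_succ_succ]; omega
      _ ≤ C := Nat.choose_le_choose _ (by omega)
  have hC3 : C ^ 3 ≤ Y ^ (4 * a) := by
    have hpos : 0 < (a ^ a) ^ 3 := by positivity
    refine Nat.le_of_mul_le_mul_left ?_ hpos
    calc (a ^ a) ^ 3 * C ^ 3 = (a ^ a * C) ^ 3 := (mul_pow _ _ _).symm
      _ ≤ ((3 * N) ^ a) ^ 3 := Nat.pow_le_pow_left (choose_bd a N) 3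
      _ = (27 * N ^ 3) ^ a := by
          rw [← pow_mul, mul_comm a 3, pow_mul]
          congr 1
          rw [mul_pow]; norm_num
      _ ≤ (a ^ 3 * Y ^ 4) ^ a := Nat.pow_le_pow_left h27 a
      _ = (a ^ a) ^ 3 * Y ^ (4 * a) := by
          rw [mul_pow, ← pow_mul, ← pow_mul, ← pow_mul, mul_comm 3 a]
  calc (a + b).choose a * ((D + a - 1).choose (a - 1)) ^ (r - 1) * (a + t - 1).choose t
      ≤ C * C ^ (r - 1) * C :=
        Nat.mul_le_mul (Nat.mul_le_mul f1 (Nat.pow_le_pow_left f2 _)) f3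
    _ = C ^ (r + 1) := by
        obtain ⟨s, rfl⟩ : ∃ s, r = s + 1 := ⟨r - 1, by omega⟩
        rw [Nat.add_sub_cancel]; ring
    _ ≤ C ^ (3 * (r - 1)) := Nat.pow_le_pow_right hC1 (by omega)
    _ = (C ^ 3) ^ (r - 1) := pow_mul _ _ _
    _ ≤ (Y ^ (4 * a)) ^ (r - 1) := Nat.pow_le_pow_left hC3 _
    _ = Y ^ (4 * ((r - 1) * a)) := by
        rw [← pow_mul]; congr 1; ring
    _ ≤ Y ^ ((q - 1) * (r - 1) * a) := by
        refine Nat.pow_le_pow_right hY ?_
        rw [mul_assoc]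
        exact Nat.mul_le_mul_right _ (by omega)

end Vale.Agent.P181.TR.H118
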